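import Vale.Agent.P237.Quant.TailData.N62.tailN62N1Part0
import Vale.Agent.P237.Quant.TailData.N62.tailN62N1Part1
import Vale.Agent.P237.Quant.TailData.N62.tailN62N1Part2
import Vale.Agent.P237.Quant.TailData.N62.tailN62N1Part3
import Vale.Agent.P237.Quant.TailData.N62.tailN62N1Part4

/-!
Tail calibration tailN62N1 in dimension 62. The check. Generated data, checked by the kernel.
-/

set_option maxRecDepth 100000
set_option linter.all false

namespace Vale.Agent.P237.Quant.TailData

open TailCert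


/-- The calibration. -/
noncomputable def tailN62N1 : Cfg :=
  tailN62N1Base.withIvals (List.flatten [tailN62N1L0, tailN62N1L1, tailN62N1L2, tailN62N1L3, tailN62N1L4, tailN62N1L5, tailN62N1L6, tailN62N1L7, tailN62N1L8, tailN62N1L9, tailN62N1L10, tailN62N1L11, tailN62N1L12, tailN62N1L13, tailN62N1L14, tailN62N1L15, tailN62N1L16, tailN62N1L17])

theorem tailN62N1_parts : [tailN62N1L0, tailN62N1L1, tailN62N1L2, tailN62N1L3, tailN62N1L4, tailN62N1L5, tailN62N1L6, tailN62N1L7, tailN62N1L8, tailN62N1L9, tailN62N1L10, tailN62N1L11, tailN62N1L12, tailN62N1L13, tailN62N1L14, tailN62N1L15, tailN62N1L16, tailN62N1L17].Forall fun l => tailN62N1Base.partUsed tailN62N1Used l = true := by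
  simp only [List.forall_cons, List.Forall]
  exact ⟨tailN62N1L0_ok, tailN62N1L1_ok, tailN62N1L2_ok, tailN62N1L3_ok, tailN62N1L4_ok, tailN62N1L5_ok, tailN62N1L6_ok, tailN62N1L7_ok, tailN62N1L8_ok, tailN62N1L9_ok, tailN62N1L10_ok, tailN62N1L11_ok, tailN62N1L12_ok, tailN62N1L13_ok, tailN62N1L14_ok, tailN62N1L15_ok, tailN62N1L16_ok, tailN62N1L17_ok⟩

theorem tailN62N1_check : tailN62N1.check = true :=
  Cfg.check_of_parts (by decide +kernel) tailN62N1_parts

end Vale.Agent.P237.Quant.TailData
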