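import Vale.Agent.P237.Quant.TailPartsLink
import Vale.Agent.P237.Quant.RowTables
import Vale.Agent.P237.Quant.EnvelopeTableData.N56
import Vale.Agent.P237.Quant.TailData.N62.tailN62P0
import Vale.Agent.P237.Quant.TailData.N62.tailN62P1
import Vale.Agent.P237.Quant.TailData.N62.tailN62P2
import Vale.Agent.P237.Quant.TailData.N62.tailN62P3
import Vale.Agent.P237.Quant.TailData.N62.tailN62N0
import Vale.Agent.P237.Quant.TailData.N62.tailN62N1

/-!
The tail inequalities of the rows of both sides in dimension 62. Generated.
-/

namespace Vale.Agent.P237.Quant

open TailCert TailData

/-- The tail inequalities of `negRow14` in dimension 62. -/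
theorem negRow14_tailAt62 : negRow14.TailAt 61 := by
  intro P hP
  simp only [negRow14, binsOf, List.mem_cons, List.not_mem_nil, or_false] at hP
  rcases hP with rfl | rfl
  · exact tailBin_negParts tailN62N0_check tailN62N0_parts envTable62_check (by decide +kernel)
  · exact tailBin_negParts tailN62N1_check tailN62N1_parts envTable62_check (by decide +kernel)

/-- The tail inequalities of `posRow55` in dimension 62. -/
theorem posRow55_tailAt62 : posRow55.TailAt 61 := by
  intro P hP
  simp only [posRow55, posRowB, posCuts14, posCuts16, binsOf, List.mem_cons, List.not_mem_nil, or_false] at hP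
  rcases hP with rfl | rfl | rfl | rfl
  · exact tailBin_posParts tailN62P0_check tailN62P0_parts envTable62_check (by decide +kernel)
  · exact tailBin_posParts tailN62P1_check tailN62P1_parts envTable62_check (by decide +kernel)
  · exact tailBin_posParts tailN62P2_check tailN62P2_parts envTable62_check (by decide +kernel)
  · exact tailBin_posParts tailN62P3_check tailN62P3_parts envTable62_check (by decide +kernel)

end Vale.Agent.P237.Quant
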